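import Vale.Agent.P040.All.Final

/-!
# x-monotone drawings of `K_{2k+1,2}`: the combinatorial core (definitions)

Reds `0, …, 2k` are labelled by abscissa.  Two blue vertices `b` (left) and `b'` (right); `g` resp.
`g'` reds lie left of `b` resp. `b'` (`g ≤ g'`).  Zones: `A = {x < g}`, `M = {g ≤ x < g'}`,
`C = {g' ≤ x}`.  `P x` (`Q x`) is the height rank of the edge `b x` (`b' x`) near `b` (`b'`); only
ranks of edges leaving on the same side are ever compared.  `u x` (`x ∈ C`): the edge `b x` passes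
above `b'`.  `v x` (`x ∈ A`): the edge `b' x` passes above `b`.
-/

namespace Vale.Agent.P040.Mono43

open Finset Vale.Agent.P040.All

/-- the hypotheses on the combinatorial data of a pair of blue vertices -/
structure Ok (k g g' : ℕ) (P Q : ℕ → ℕ) (u v : ℕ → Bool) : Prop where
  hg : g ≤ g'
  hg' : g' ≤ 2 * k + 1
  hP : ∀ x < 2 * k + 1, P x < 2 * k + 1
  hQ : ∀ x < 2 * k + 1, Q x < 2 * k + 1
  injPl : ∀ x y, x < g → y < g → P x = P y → x = y
  injPr : ∀ x y, g ≤ x → x < 2 * k + 1 → g ≤ y → y < 2 * k + 1 → P x = P y → x = y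
  injQl : ∀ x y, x < g' → y < g' → Q x = Q y → x = y
  injQr : ∀ x y, g' ≤ x → x < 2 * k + 1 → g' ≤ y → y < 2 * k + 1 → Q x = Q y → x = y
  hu : ∀ x y, g' ≤ x → x < 2 * k + 1 → g' ≤ y → y < 2 * k + 1 → u x = true → u y = false →
    P y < P x
  hv : ∀ x y, x < g → y < g → v x = true → v y = false → Q y < Q x

/-- The rotation at a blue vertex with `g` reds on its left: the right edges from bottom to top,
then the left edges from top to bottom. -/
def rkey (k g : ℕ) (P : ℕ → ℕ) (x : ℕ) : ℤ := if g ≤ x then up k 0 (P x) else dn k 2 (P x)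

/-- `[C_D by P asc][M by P asc][C_U by P asc][A by P desc]` -/
def T1 (k g g' : ℕ) (P _Q : ℕ → ℕ) (u _v : ℕ → Bool) (x : ℕ) : ℤ :=
  if x < g then dn k 4 (P x) else if x < g' then up k 1 (P x)
  else (if u x then up k 2 (P x) else up k 0 (P x))

/-- `[M by P asc][C_U by P asc][A by P desc][C_D by P asc]` -/
def T1r (k g g' : ℕ) (P _Q : ℕ → ℕ) (u _v : ℕ → Bool) (x : ℕ) : ℤ :=
  if x < g then dn k 4 (P x) else if x < g' then up k 1 (P x)
  else (if u x then up k 2 (P x) else up k 5 (P x))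

/-- `[M by Q asc][C_U by P asc][A by P desc][C_D by P asc]` -/
def T2 (k g g' : ℕ) (P Q : ℕ → ℕ) (u _v : ℕ → Bool) (x : ℕ) : ℤ :=
  if x < g then dn k 4 (P x) else if x < g' then up k 1 (Q x)
  else (if u x then up k 2 (P x) else up k 5 (P x))

/-- `[M by Q asc][C_U by P asc][A_U' desc][A_D' asc][C_D by P asc]` -/
def T3 (k g g' : ℕ) (P Q : ℕ → ℕ) (u v : ℕ → Bool) (x : ℕ) : ℤ :=
  if x < g then (if v x then dn k 3 x else up k 4 x) else if x < g' then up k 1 (Q x)
  else (if u x then up k 2 (P x) else up k 5 (P x))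

/-- `[M by Q asc][A_U' desc][C_U by P asc][C_D by P asc][A_D' asc]` -/
def T4 (k g g' : ℕ) (P Q : ℕ → ℕ) (u v : ℕ → Bool) (x : ℕ) : ℤ :=
  if x < g then (if v x then dn k 2 x else up k 5 x) else if x < g' then up k 1 (Q x)
  else (if u x then up k 3 (P x) else up k 4 (P x))

/-- `[M by Q asc][A_U' desc][C_U asc][C_D desc][A_D' asc]` -/
def T5 (k g g' : ℕ) (_P Q : ℕ → ℕ) (u v : ℕ → Bool) (x : ℕ) : ℤ :=
  if x < g then (if v x then dn k 2 x else up k 5 x) else if x < g' then up k 1 (Q x)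
  else (if u x then up k 3 x else dn k 4 x)

/-- `[M by Q asc][A_U' desc][C by Q desc][A_D' asc]` -/
def T6 (k g g' : ℕ) (_P Q : ℕ → ℕ) (_u v : ℕ → Bool) (x : ℕ) : ℤ :=
  if x < g then (if v x then dn k 2 x else up k 5 x) else if x < g' then up k 1 (Q x)
  else dn k 4 (Q x)

/-- `[M by Q asc][A_U' by Q asc][C by Q desc][A_D' by Q asc]` -/
def T7 (k g g' : ℕ) (_P Q : ℕ → ℕ) (_u v : ℕ → Bool) (x : ℕ) : ℤ :=
  if x < g then (if v x then up k 2 (Q x) else up k 5 (Q x)) else if x < g' then up k 1 (Q x)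
  else dn k 4 (Q x)

/-- `[A_D' by Q asc][M by Q asc][A_U' by Q asc][C by Q desc]` -/
def T7r (k g g' : ℕ) (_P Q : ℕ → ℕ) (_u v : ℕ → Bool) (x : ℕ) : ℤ :=
  if x < g then (if v x then up k 2 (Q x) else up k 0 (Q x)) else if x < g' then up k 1 (Q x)
  else dn k 4 (Q x)

/-- the reversed rotation at `b'`: `[A ∪ M by Q asc][C by Q desc]` -/
def T8 (k g' : ℕ) (Q : ℕ → ℕ) (x : ℕ) : ℤ := - rkey k g' Q x

/-- The edge `b i` and the edge `b' j` have different vertical orders at the two ends of their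
common `x`-range (so they cross). -/
def XX (g g' : ℕ) (P Q : ℕ → ℕ) (u v : ℕ → Bool) (i j : ℕ) : Bool :=
  if j < g then
    if i < g then (if j < i then v j == decide (Q j < Q i) else v j == decide (P j < P i))
    else if i < g' then v j == decide (Q j < Q i)
    else v j == u i
  else if j < g' then
    if i < g then false
    else if i < g' then decide (j < i) && (decide (P j < P i) != decide (Q j < Q i))
    else decide (P j < P i) != u i
  else
    if i < g' then false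
    else if i < j then u i != decide (Q j < Q i)
    else u i != decide (P j < P i)

/-- indicator of `XX` -/
def tt (g g' : ℕ) (P Q : ℕ → ℕ) (u v : ℕ → Bool) (i j : ℕ) : ℕ :=
  if XX g g' P Q u v i j then 1 else 0

/-- number of forced crossings between the stars of `b` and `b'` -/
def crM (n g g' : ℕ) (P Q : ℕ → ℕ) (u v : ℕ → Bool) : ℕ :=
  (((range n) ×ˢ (range n)).filter fun q => q.1 ≠ q.2 ∧ XX g g' P Q u v q.1 q.2 = true).card

/-- `ξ_x(b) = N_x(π_b) - max (k - x) 0` -/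
def xiM (k g : ℕ) (P : ℕ → ℕ) (x : ℕ) : ℕ := NN k (rkey k g P) x - (k - x)

/-- the feature `(x, τ)`, `τ < w_x`: thermometer code of `ξ_x`, filled from the bottom if the blue
vertex is left of the red `x`, from the top otherwise -/
def PhiM (k : ℕ) (f : ℕ × ℕ) (g : ℕ) (P : ℕ → ℕ) : Bool :=
  if g ≤ f.1 then decide (f.2 < xiM k g P f.1) else decide (wd k f.1 ≤ f.2 + xiM k g P f.1)

/-- the eight stages together, at the pair `x, y` -/
def dsc8 (k g g' : ℕ) (P Q : ℕ → ℕ) (u v : ℕ → Bool) (x y : ℕ) : ℕ :=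
  dsc (rkey k g P) (T1 k g g' P Q u v) x y + dsc (T1r k g g' P Q u v) (T2 k g g' P Q u v) x y +
  dsc (T2 k g g' P Q u v) (T3 k g g' P Q u v) x y + dsc (T3 k g g' P Q u v) (T4 k g g' P Q u v) x y +
  dsc (T4 k g g' P Q u v) (T5 k g g' P Q u v) x y + dsc (T5 k g g' P Q u v) (T6 k g g' P Q u v) x y +
  dsc (T6 k g g' P Q u v) (T7 k g g' P Q u v) x y + dsc (T7r k g g' P Q u v) (T8 k g' Q) x y

/-- total variation of `N_x` along the eight stages -/
def tv (k g g' : ℕ) (P Q : ℕ → ℕ) (u v : ℕ → Bool) (x : ℕ) : ℤ :=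
  |(NN k (rkey k g P) x : ℤ) - NN k (T1 k g g' P Q u v) x| +
  |(NN k (T1r k g g' P Q u v) x : ℤ) - NN k (T2 k g g' P Q u v) x| +
  |(NN k (T2 k g g' P Q u v) x : ℤ) - NN k (T3 k g g' P Q u v) x| +
  |(NN k (T3 k g g' P Q u v) x : ℤ) - NN k (T4 k g g' P Q u v) x| +
  |(NN k (T4 k g g' P Q u v) x : ℤ) - NN k (T5 k g g' P Q u v) x| +
  |(NN k (T5 k g g' P Q u v) x : ℤ) - NN k (T6 k g g' P Q u v) x| +
  |(NN k (T6 k g g' P Q u v) x : ℤ) - NN k (T7 k g g' P Q u v) x| +
  |(NN k (T7r k g g' P Q u v) x : ℤ) - NN k (T8 k g' Q) x|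

end Vale.Agent.P040.Mono43
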