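import Vale.Agent.P040.Mono43.Stage

/-! # Assembly of the combinatorial core (rows MZ1 - MZ9)

Everything here is a copy, with eight stages instead of four, of `Vale/Agent/P040/All/Final.lean`. -/

namespace Vale.Agent.P040.Mono43

open Finset Vale.Agent.P040.All

variable {k g g' : ℕ} {P Q : ℕ → ℕ} {u v : ℕ → Bool}

/-- (MZ1) `NN_rot` with `rot1`. -/
lemma NN_T1r (h : Ok k g g' P Q u v) {x : ℕ} (hx : x < 2 * k + 1) :
    NN k (T1r k g g' P Q u v) x = NN k (T1 k g g' P Q u v) x :=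
  NN_rot (rot1 h) hx

/-- (MZ2) `NN_rot` with `rot7`. -/
lemma NN_T7 (h : Ok k g g' P Q u v) {x : ℕ} (hx : x < 2 * k + 1) :
    NN k (T7 k g g' P Q u v) x = NN k (T7r k g g' P Q u v) x :=
  NN_rot (rot7 h) hx

/-- (MZ3) `NN_neg` with `inj_rkey`. -/
lemma NN_T8 (h : Ok k g g' P Q u v) {x : ℕ} (hx : x < 2 * k + 1) :
    NN k (T8 k g' Q) x + NN k (rkey k g' Q) x = 2 * k - x :=
  NN_neg (inj_rkey h.hQ h.injQl h.injQr) hx

/-- (MZ4) `NN_ge`, `NN_le_k`, `NN_le_sub`; unfold `xiM`, `wd`; `omega`.  Pattern: `xi_spec`. -/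
lemma xiM_spec (hi : Inj (2 * k + 1) (rkey k g P)) {x : ℕ} (hx : x < 2 * k + 1) :
    xiM k g P x ≤ wd k x ∧ NN k (rkey k g P) x = xiM k g P x + (k - x) := by
  have h1 := NN_ge hi hx
  have h2 := NN_le_k hi hx
  have h3 := NN_le_sub (k := k) (κ := rkey k g P) x
  unfold xiM wd
  omega

/-- (MZ5) `x ∈ A`: both blue vertices are right of `x` (`PhiM` = filled from the top, `therm_tt`);
`NN (T3) x` is extreme (`NN_extreme`, `blk3_U`, `blk3_D`, `inj_T3`); MZ1 - MZ4.  Pattern:
`agree_L` in `All/Final.lean` (now with eight absolute values). -/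
lemma agree_A (h : Ok k g g' P Q u v) {x : ℕ} (hx : x < g) :
    (((range (wd k x)).filter fun τ => PhiM k (x, τ) g P = PhiM k (x, τ) g' Q).card : ℤ)
      ≤ tv k g g' P Q u v x := by
  sorry

/-- (MZ6) `x ∈ M`: `b` is left of `x`, `b'` right of `x` (`therm_bt`); triangle inequality;
MZ1 - MZ4.  Pattern: `agree_M` in `All/Final.lean`. -/
lemma agree_M (h : Ok k g g' P Q u v) {x : ℕ} (hx : g ≤ x) (hx' : x < g') :
    (((range (wd k x)).filter fun τ => PhiM k (x, τ) g P = PhiM k (x, τ) g' Q).card : ℤ)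
      ≤ tv k g g' P Q u v x := by
  sorry

/-- (MZ7) `x ∈ C`: both blue vertices are left of `x` (`therm_bb`); `NN (T5) x` is extreme
(`NN_extreme`, `blk5_U`, `blk5_D`, `inj_T5`); MZ1 - MZ4.  Pattern: `agree_R` in
`All/Final.lean`. -/
lemma agree_C (h : Ok k g g' P Q u v) {x : ℕ} (hx : g' ≤ x) (hx' : x < 2 * k + 1) :
    (((range (wd k x)).filter fun τ => PhiM k (x, τ) g P = PhiM k (x, τ) g' Q).card : ℤ)
      ≤ tv k g g' P Q u v x := by
  sorry

/-- (MZ8) `∑_x tv =` the sum of the eight `DD ≤` the eight numbers of discordant pairs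
(`DD_le_disc`, `inj_rkey`, `inj_T1` …) `≤ crM` (`disc_sum_le`).  Pattern: `sum_tv_le` in
`All/Final.lean`. -/
lemma sum_tv_le (h : Ok k g g' P Q u v) :
    ∑ x ∈ range (2 * k + 1), tv k g g' P Q u v x ≤ (crM (2 * k + 1) g g' P Q u v : ℤ) := by
  sorry

/-- (MZ9) **the certificate inequality for a pair of blue vertices of a monotone drawing** -/
theorem pair_cert (h : Ok k g g' P Q u v) :
    ((II k).filter fun f => PhiM k f g P = PhiM k f g' Q).card ≤ crM (2 * k + 1) g g' P Q u v := by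
  rw [card_filter_II]
  have hg := h.hg
  have h1 : ((∑ x ∈ range (2 * k + 1),
      ((range (wd k x)).filter fun τ => PhiM k (x, τ) g P = PhiM k (x, τ) g' Q).card : ℕ) : ℤ) ≤
      ∑ x ∈ range (2 * k + 1), tv k g g' P Q u v x := by
    push_cast
    apply sum_le_sum
    intro x hx
    rw [mem_range] at hx
    by_cases h1 : x < g
    · exact agree_A h h1
    · by_cases h2 : x < g'
      · exact agree_M h (by omega) h2
      · exact agree_C h (by omega) hx
  have h2 := sum_tv_le h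
  exact_mod_cast h1.trans h2

end Vale.Agent.P040.Mono43
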