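import Vale.Agent.P040.Mono43.Core

/-! # The stage sequences of the monotone proof (rows MS1 - MS28)

All rows here are finite case distinctions followed by linear arithmetic, exactly as in
`Vale/Agent/P040/All/Stage.lean` (look there for working proof patterns):
`simp only [T1, T2, …, rkey, up, dn]`, `cases hu : u x`, `cases hv : v x`, `split_ifs`, `omega`.
First put into the context the needed instances of the fields of `Ok` (bounds `h.hP x hx`,
`h.hQ x hx`, injectivity, `h.hu`, `h.hv`) for the two or three elements involved; `omega` treats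
`P x`, `Q x` as atoms. -/

namespace Vale.Agent.P040.Mono43

open Finset Vale.Agent.P040.All

variable {k g g' : ℕ} {P Q : ℕ → ℕ} {u v : ℕ → Bool}

/-- (MS1) -/
lemma inj_rkey (hP : ∀ x < 2 * k + 1, P x < 2 * k + 1)
    (hl : ∀ x y, x < g → y < g → P x = P y → x = y)
    (hr : ∀ x y, g ≤ x → x < 2 * k + 1 → g ≤ y → y < 2 * k + 1 → P x = P y → x = y) :
    Inj (2 * k + 1) (rkey k g P) := by
  sorry

/-- (MS2) -/
lemma inj_T1 (h : Ok k g g' P Q u v) : Inj (2 * k + 1) (T1 k g g' P Q u v) := by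
  sorry

/-- (MS3) -/
lemma inj_T1r (h : Ok k g g' P Q u v) : Inj (2 * k + 1) (T1r k g g' P Q u v) := by
  sorry

/-- (MS4) -/
lemma inj_T2 (h : Ok k g g' P Q u v) : Inj (2 * k + 1) (T2 k g g' P Q u v) := by
  sorry

/-- (MS5) -/
lemma inj_T3 (h : Ok k g g' P Q u v) : Inj (2 * k + 1) (T3 k g g' P Q u v) := by
  sorry

/-- (MS6) -/
lemma inj_T4 (h : Ok k g g' P Q u v) : Inj (2 * k + 1) (T4 k g g' P Q u v) := by
  sorry

/-- (MS7) -/
lemma inj_T5 (h : Ok k g g' P Q u v) : Inj (2 * k + 1) (T5 k g g' P Q u v) := by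
  sorry

/-- (MS8) -/
lemma inj_T6 (h : Ok k g g' P Q u v) : Inj (2 * k + 1) (T6 k g g' P Q u v) := by
  sorry

/-- (MS9) -/
lemma inj_T7 (h : Ok k g g' P Q u v) : Inj (2 * k + 1) (T7 k g g' P Q u v) := by
  sorry

/-- (MS10) -/
lemma inj_T7r (h : Ok k g g' P Q u v) : Inj (2 * k + 1) (T7r k g g' P Q u v) := by
  sorry

/-- (MS11) `inj_neg` (in `All/`) applied to `inj_rkey`. -/
lemma inj_T8 (h : Ok k g g' P Q u v) : Inj (2 * k + 1) (T8 k g' Q) := by
  sorry

/-- (MS12) `T1r` is `T1` with the initial block `C_D` moved to the end. -/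
lemma rot1 (h : Ok k g g' P Q u v) :
    Rot (2 * k + 1) (T1 k g g' P Q u v) (T1r k g g' P Q u v) (fun x => g' ≤ x ∧ u x = false) := by
  sorry

/-- (MS13) `T7` is `T7r` with the initial block `A_D'` moved to the end. -/
lemma rot7 (h : Ok k g g' P Q u v) :
    Rot (2 * k + 1) (T7r k g g' P Q u v) (T7 k g g' P Q u v) (fun x => x < g ∧ v x = false) := by
  sorry

/-- (MS14) `x ∈ A_U'`: in `T3` the smaller elements come right after `x`
(pattern: `blk2_U` in `All/Stage.lean`). -/
lemma blk3_U (h : Ok k g g' P Q u v) {x : ℕ} (hx : x < g) (hv : v x = true) :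
    Blk (2 * k + 1) (T3 k g g' P Q u v) x (fun y => y < x) := by
  sorry

/-- (MS15) `x ∈ A_D'`: in `T3` the smaller elements come right before `x`
(pattern: `blk2_D` in `All/Stage.lean`). -/
lemma blk3_D (h : Ok k g g' P Q u v) {x : ℕ} (hx : x < g) (hv : v x = false) :
    Blk (2 * k + 1) (fun y => - T3 k g g' P Q u v y) x (fun y => y < x) := by
  sorry

/-- (MS16) `x ∈ C_U`: in `T5` the larger elements come right after `x`
(pattern: `blk3_U` in `All/Stage.lean`). -/
lemma blk5_U (h : Ok k g g' P Q u v) {x : ℕ} (hx : g' ≤ x) (hx' : x < 2 * k + 1)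
    (hu : u x = true) : Blk (2 * k + 1) (T5 k g g' P Q u v) x (fun y => x < y) := by
  sorry

/-- (MS17) `x ∈ C_D`: in `T5` the larger elements come right before `x`
(pattern: `blk3_D` in `All/Stage.lean`). -/
lemma blk5_D (h : Ok k g g' P Q u v) {x : ℕ} (hx : g' ≤ x) (hx' : x < 2 * k + 1)
    (hu : u x = false) : Blk (2 * k + 1) (fun y => - T5 k g g' P Q u v y) x (fun y => x < y) := by
  sorry

/-- (MS18) both in `A`.  Only the stages `T2 → T3` and `T6 → T7` can be discordant.
Unfold `dsc8 dsc tt XX` and all keys; cases on `v x`, `v y`; use `h.hP`, `h.hQ`, `h.injPl`,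
`h.injQl`, `h.hv` at `x, y` and `y, x`. -/
lemma stage_AA (h : Ok k g g' P Q u v) {x y : ℕ} (hxy : x < y) (hy : y < g) :
    dsc8 k g g' P Q u v x y ≤ tt g g' P Q u v x y + tt g g' P Q u v y x := by
  have hg := h.hg
  have hg' := h.hg'
  have hx : x < g := by omega
  have hxn : x < 2 * k + 1 := by omega
  have hyn : y < 2 * k + 1 := by omega
  have p1 := h.hP x hxn
  have p2 := h.hP y hyn
  have q1 := h.hQ x hxn
  have q2 := h.hQ y hyn
  have hPne : P x ≠ P y := fun e => by have := h.injPl x y hx hy e; omega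
  have hQne : Q x ≠ Q y := fun e => by have := h.injQl x y (by omega) (by omega) e; omega
  have hv1 := h.hv x y hx hy
  have hv2 := h.hv y x hy hx
  have hxg' : x < g' := by omega
  have hyg' : y < g' := by omega
  have nx : ¬ g ≤ x := by omega
  have ny : ¬ g ≤ y := by omega
  have nx' : ¬ g' ≤ x := by omega
  have ny' : ¬ g' ≤ y := by omega
  have nyx : ¬ y < x := by omega
  simp only [dsc8, dsc, tt, XX, rkey, T1, T1r, T2, T3, T4, T5, T6, T7, T7r, T8, up, dn, hx, hy,
    hxg', hyg', nx, ny, nx', ny', nyx, hxy, if_true, if_false]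
  cases hvx : v x <;> cases hvy : v y <;> simp only [hvx, hvy] at hv1 hv2 <;>
    by_cases hP : P y < P x <;> by_cases hQ : Q x < Q y <;>
    simp only [hP, hQ, decide_true, decide_false, beq_self_eq_true, if_true, if_false,
      Bool.false_eq_true, Bool.true_eq_false, beq_iff_eq, reduceCtorEq] <;>
    split_ifs <;> omega

/-- (MS19) `x ∈ A`, `y ∈ M`.  Only the stage `T7r → T8` can be discordant. -/
lemma stage_AM (h : Ok k g g' P Q u v) {x y : ℕ} (hx : x < g) (hy : g ≤ y) (hy' : y < g') :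
    dsc8 k g g' P Q u v x y ≤ tt g g' P Q u v x y + tt g g' P Q u v y x := by
  sorry

/-- (MS20) `x ∈ A`, `y ∈ C`.  Only the stage `T3 → T4` can be discordant. -/
lemma stage_AC (h : Ok k g g' P Q u v) {x y : ℕ} (hx : x < g) (hy : g' ≤ y)
    (hn : y < 2 * k + 1) :
    dsc8 k g g' P Q u v x y ≤ tt g g' P Q u v x y + tt g g' P Q u v y x := by
  sorry

/-- (MS21) both in `M`.  Only the stage `T1r → T2` can be discordant. -/
lemma stage_MM (h : Ok k g g' P Q u v) {x y : ℕ} (hx : g ≤ x) (hxy : x < y) (hy : y < g') :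
    dsc8 k g g' P Q u v x y ≤ tt g g' P Q u v x y + tt g g' P Q u v y x := by
  sorry

/-- (MS22) `x ∈ M`, `y ∈ C`.  Only the stage `rkey → T1` can be discordant. -/
lemma stage_MC (h : Ok k g g' P Q u v) {x y : ℕ} (hx : g ≤ x) (hx' : x < g') (hy : g' ≤ y)
    (hn : y < 2 * k + 1) :
    dsc8 k g g' P Q u v x y ≤ tt g g' P Q u v x y + tt g g' P Q u v y x := by
  sorry

/-- (MS23) both in `C`.  Only the stages `T4 → T5` and `T5 → T6` can be discordant; `h.hu` is
needed for `rkey → T1` and `T4 → T5`. -/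
lemma stage_CC (h : Ok k g g' P Q u v) {x y : ℕ} (hx : g' ≤ x) (hxy : x < y)
    (hn : y < 2 * k + 1) :
    dsc8 k g g' P Q u v x y ≤ tt g g' P Q u v x y + tt g g' P Q u v y x := by
  sorry

/-- (MS24) from MS18 - MS23 -/
lemma stage_pt (h : Ok k g g' P Q u v) {x y : ℕ} (hxy : x < y) (hn : y < 2 * k + 1) :
    dsc8 k g g' P Q u v x y ≤ tt g g' P Q u v x y + tt g g' P Q u v y x := by
  have hg := h.hg
  by_cases h1 : y < g
  · exact stage_AA h hxy h1
  · by_cases h2 : y < g'
    · by_cases h3 : x < g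
      · exact stage_AM h h3 (by omega) h2
      · exact stage_MM h (by omega) hxy h2
    · by_cases h3 : x < g
      · exact stage_AC h h3 (by omega) hn
      · by_cases h4 : x < g'
        · exact stage_MC h (by omega) h4 (by omega) hn
        · exact stage_CC h (by omega) hxy hn

/-- (MS25) `crM = ∑_{(i,j), i ≠ j} tt i j` (`card_filter`); split `i ≠ j` into `i < j` and `j < i`
(image of the first under the swap).  Pattern: `crN_ge` in `All/Stage.lean`. -/
lemma crM_ge (m : ℕ) :
    ∑ q ∈ ((range m) ×ˢ (range m)).filter (fun q => q.1 < q.2),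
      (tt g g' P Q u v q.1 q.2 + tt g g' P Q u v q.2 q.1) ≤ crM m g g' P Q u v := by
  have h0 : crM m g g' P Q u v =
      ∑ q ∈ ((range m) ×ˢ (range m)).filter (fun q => q.1 ≠ q.2), tt g g' P Q u v q.1 q.2 := by
    unfold crM tt
    rw [card_filter, sum_filter]
    refine sum_congr rfl fun q _ => ?_
    by_cases h1 : q.1 ≠ q.2 <;> by_cases h2 : XX g g' P Q u v q.1 q.2 = true <;> simp [h1, h2]
  have h1 : ∑ q ∈ ((range m) ×ˢ (range m)).filter (fun q => q.1 < q.2), tt g g' P Q u v q.2 q.1 =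
      ∑ q ∈ ((range m) ×ˢ (range m)).filter (fun q => q.2 < q.1), tt g g' P Q u v q.1 q.2 := by
    refine sum_bij (fun q _ => (q.2, q.1)) ?_ ?_ ?_ ?_
    · intro q hq
      simp only [mem_filter, mem_product, mem_range] at hq ⊢
      exact ⟨⟨hq.1.2, hq.1.1⟩, hq.2⟩
    · intro a _ b _ h
      simp only [Prod.mk.injEq] at h
      exact Prod.ext h.2 h.1
    · intro b hb
      simp only [mem_filter, mem_product, mem_range] at hb
      refine ⟨(b.2, b.1), ?_, rfl⟩
      simp only [mem_filter, mem_product, mem_range]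
      exact ⟨⟨hb.1.2, hb.1.1⟩, hb.2⟩
    · intro q _
      rfl
  rw [sum_add_distrib, h1, h0, ← sum_union]
  · apply sum_le_sum_of_subset
    intro q hq
    simp only [mem_union, mem_filter] at hq ⊢
    rcases hq with hq | hq
    · exact ⟨hq.1, by omega⟩
    · exact ⟨hq.1, by omega⟩
  · rw [disjoint_left]
    intro q h2 h3
    simp only [mem_filter] at h2 h3
    omega

/-- (MS26) from MS24, MS25 and `card_disc_eq` (`sum_add_distrib`, `sum_le_sum`).  Pattern:
`disc_sum_le` in `All/Stage.lean`. -/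
lemma disc_sum_le (h : Ok k g g' P Q u v) :
    (Disc (2 * k + 1) (rkey k g P) (T1 k g g' P Q u v)).card +
      (Disc (2 * k + 1) (T1r k g g' P Q u v) (T2 k g g' P Q u v)).card +
      (Disc (2 * k + 1) (T2 k g g' P Q u v) (T3 k g g' P Q u v)).card +
      (Disc (2 * k + 1) (T3 k g g' P Q u v) (T4 k g g' P Q u v)).card +
      (Disc (2 * k + 1) (T4 k g g' P Q u v) (T5 k g g' P Q u v)).card +
      (Disc (2 * k + 1) (T5 k g g' P Q u v) (T6 k g g' P Q u v)).card +
      (Disc (2 * k + 1) (T6 k g g' P Q u v) (T7 k g g' P Q u v)).card +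
      (Disc (2 * k + 1) (T7r k g g' P Q u v) (T8 k g' Q)).card ≤
    crM (2 * k + 1) g g' P Q u v := by
  sorry

end Vale.Agent.P040.Mono43
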